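import Vale.Agent.P238.Upper

open Vale.Agent.P238

theorem Vale.Agent.Results.P238.Theta.result :
    ∃ c C : ℝ, 0 < c ∧ 0 < C ∧ ∃ N : ℕ, ∀ n ≥ N,
      Real.exp (c * Real.sqrt (Real.log n * Real.log (Real.log n))) ≤
          c1 (Fin n → Bool) (fun x y => (ED (List.ofFn x) (List.ofFn y) : ℝ)) ∧
        c1 (Fin n → Bool) (fun x y => (ED (List.ofFn x) (List.ofFn y) : ℝ)) ≤
          Real.exp (C * Real.sqrt (Real.log n * Real.log (Real.log n))) :=
  two_sided
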